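import Vale.Agent.P048.Bdl.B1

namespace Vale.Agent.Results.P048.AFullRange

/-- The set of all pairs `m ≥ n ≥ 3` at which the identity
`R(C_m, K_n) = (m - 1) (n - 1) + 1` holds: all pairs except `(3, 3)`. Here `R(C_m, K_n)` is the
least `N` such that every graph on `N` vertices contains a copy of the cycle `C_m` or an
independent set of `n` vertices. -/
theorem result (m n : ℕ) (hn : 3 ≤ n) (hnm : n ≤ m) :
    IsLeast {N : ℕ | ∀ G : SimpleGraph (Fin N),
      (SimpleGraph.cycleGraph m).IsContained G ∨ ∃ s : Finset (Fin N), G.IsNIndepSet n s}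
      ((m - 1) * (n - 1) + 1) ↔ ¬ (m = 3 ∧ n = 3) := by
  constructor
  · rintro h ⟨rfl, rfl⟩
    exact Vale.Agent.P048.not_three_three h
  · intro h
    exact Vale.Agent.P048.all_range m n (by omega) hnm (by omega)

end Vale.Agent.Results.P048.AFullRange
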